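import Vale.Agent.P092.H574.Phi
import Vale.Agent.P092.TX.H483.LineC

/-!
P092, Team C, all amplifications: copy for the picture `PicX` (existential form of `inv`).
P092, TEAM C, [C-LINE] (helper574): from the vanishing theorem in terms of `Φ` to `VanStmt`.
-/

set_option linter.all false

open scoped InnerProductSpace ENNReal LinearAlgebra.Projectivization
open Filter Topology ContinuousLinearMap TopologicalSpace Matrix Projectivization

namespace Vale.Agent.P092.TX.H574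

open Vale.Agent.P092.H574

open Vale.Agent.P092.SR (CO)
open Vale.Agent.P092.RC

section inc

variable {k : Type} [NontriviallyNormedField k]
  (hcc : ∀ g h : GG k 2, ∀ y : YY k 2, cc (g * h) y = cc g (h • y) * cc h y)

lemma y1_ln : ((y1 : YY k 2), H791.ln (y0 : YY k 2) e0) ∈ inc := by
  unfold e0
  rw [H791.ln_mk]
  unfold y1
  refine (H791.inc_mk _ _ _ _).2 ?_
  rw [H791.Ly_apply, sct_y0]
  simp [H791.rt_apply]

include hcc in
lemma inc_dir {y y' : YY k 2} (h : y ≠ y') : (y', H791.ln y (dir y y')) ∈ inc := by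
  obtain ⟨g, hg, hg'⟩ := two_trans h
  rw [dir_eq hcc h hg hg']
  have h1 := H791.ln_eqv g (y0 : YY k 2) e0
  rw [hg] at h1
  have h2 := (H791.inc_smul g _ _).2 (y1_ln (k := k))
  rw [h1, hg'] at h2
  exact h2

include hcc in
lemma dir_of_inc {y y' : YY k 2} (h : y ≠ y') {x : P1 k} (hx : (y', H791.ln y x) ∈ inc) :
    x = dir y y' := by
  have h1 := H791.uniq y y' (H791.ln y x) (H791.ln y (dir y y')) h (H791.ln_mem y x) hx
    (H791.ln_mem y _) (inc_dir hcc h)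
  exact H791.ln_inj y _ _ h1

end inc

/-- the vanishing theorem in terms of `Φ` -/
def VanPhi : Prop :=
  ∀ (k : Type) [NontriviallyNormedField k] [ProperSpace k] [IsUltrametricDist k] [CharZero k]
    {Γ K : Type} [Group Γ] [NormedAddCommGroup K] [InnerProductSpace ℂ K] [CompleteSpace K]
    (π : GG k 2 →* (K →L[ℂ] K)) (lam : Γ →* (K →L[ℂ] K)) (W W' : Set (K →L[ℂ] K)) (Ω : K)
    (q : Γ →* GG k 2) (E : Clopens (YY k 2) → (K →L[ℂ] K)) (δ : GG k 2 → PG k 2)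
    (Q : Set (YY k 2 × PG k 2) → (K →L[ℂ] K)),
    Emb q → PicX π lam W Ω → W ⊆ W' →
    ∀ hz : ZFam π lam W' Ω q cc y0 E δ Q, ∀ d : P1 k → P1 k,
    (∀ (a : k) (ha : a ≠ 0), ‖a‖ < 1 → ∀ h : GL (Fin 2) k, Two δ d (h • e0)
      (jj (h * dg a ha * h⁻¹)) (jj (h * un 1 * h⁻¹))) →
    ∀ g : GG k 2, g • (y0 : YY k 2) ≠ y0 → ∀ C C' : Set (YY k 2 × PG k 2), CO C → CO C' →
    C ×ˢ C' ⊆ DD k →
    (∀ x ∈ C ×ˢ C', Phi x ≠ (d (dir y0 (g • y0)), d (dir y0 (g⁻¹ • y0)))) →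
    π g * Q C' * π g⁻¹ * Q C = 0

theorem vanStmt_of (hV : VanPhi) : H483.VanStmt := by
  intro k _ _ _ _ Γ K _ _ _ _ π lam W W' Ω q E δ Q hq hp hE he hz d hd1 hd2 hd3 g hg m m' hm C C'
    hC hC' hCC
  have hG : Geo (cc : GG k 2 → YY k 2 → PG k 2) y0 := H200.Coc.geoStmt k 2 (by norm_num)
  have hg' : (y0 : YY k 2) ≠ g⁻¹ • y0 := by
    intro h
    apply hg
    rw [eq_inv_smul_iff] at h
    exact h
  -- the two directions
  have h1 : (g • (y0 : YY k 2), H791.ln (y0 : YY k 2) m) ∈ inc := by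
    rw [← hm]
    exact (H791.inc_smul g _ _).2 (H791.ln_mem _ _)
  have e1 : m = dir y0 (g • y0) := dir_of_inc hG.mul (Ne.symm hg) h1
  have h2 : (g⁻¹ • (y0 : YY k 2), H791.ln (y0 : YY k 2) m') ∈ inc := by
    have h3 := (H791.inc_smul g⁻¹ _ _).2 (H791.ln_mem (y0 : YY k 2) m)
    rw [← hm, inv_smul_smul] at h3
    exact h3
  have e2 : m' = dir y0 (g⁻¹ • y0) := dir_of_inc hG.mul hg' h2
  refine hV k π lam W W' Ω q E δ Q hq hp he.sub hz d hd3 g hg C C' hC hC' ?_ ?_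
  · rintro ⟨z, z'⟩ ⟨h3, h4⟩
    exact (hCC z h3 z' h4).1
  · rintro ⟨z, z'⟩ ⟨h3, h4⟩ h5
    obtain ⟨h6, h7⟩ := hCC z h3 z' h4
    rw [← e1, ← e2] at h5
    have a1 : pm (z.2)⁻¹ (dir z.1 z'.1) = d m := congrArg Prod.fst h5
    have a2 : pm (z'.2)⁻¹ (dir z'.1 z.1) = d m' := congrArg Prod.snd h5
    have b1 : z.2 • d m = dir z.1 z'.1 := by
      rw [H791.actD_eq, ← a1, ← pm_mul, mul_inv_cancel, map_one]
      rfl
    have b2 : z'.2 • d m' = dir z'.1 z.1 := by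
      rw [H791.actD_eq, ← a2, ← pm_mul, mul_inv_cancel, map_one]
      rfl
    rcases h7 with h7 | h7
    · apply h7
      rw [b1]
      exact inc_dir hG.mul h6
    · apply h7
      rw [b2]
      exact inc_dir hG.mul (Ne.symm h6)

end Vale.Agent.P092.TX.H574
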